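import Vale.Agent.P153.H212.Fun
import Vale.Agent.P145W85.Bd.B7

/-!
P153, second form of the final statements: the limit field is not degenerate.
-/

set_option autoImplicit false

namespace Vale.Agent.P145W85.P153.H212

open Vale.Agent.P153.H212

open MeasureTheory Filter Topology Set Complex
open Vale.Agent.P153.R2

theorem isBounded_dom (Φ : ℂ ≃ₜ ℂ) : Bornology.IsBounded (dom Φ) := by
  have h1 : IsCompact (Φ '' Metric.closedBall 0 1) :=
    (isCompact_closedBall _ _).image Φ.continuous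
  exact h1.isBounded.subset (image_mono Metric.ball_subset_closedBall)

theorem le_V (Φ : ℂ ≃ₜ ℂ) {φ ψ : ℂ → ℝ} (hφ : TestOn (dom Φ) φ) (hψ : TestOn (dom Φ) ψ) :
    (2 * ∫ z, φ z * ψ z) - ∫ z, ‖fderiv ℝ ψ z‖ ^ 2 ≤ V (dom Φ) φ := by
  have hb : Bornology.IsBounded (e '' dom Φ) := by
    have h1 : IsCompact (e '' (Φ '' Metric.closedBall 0 1)) :=
      ((isCompact_closedBall _ _).image Φ.continuous).image e.continuous
    exact h1.isBounded.subset (image_mono (image_mono Metric.ball_subset_closedBall))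
  have h1 := Vale.Agent.P145W85.P145.PT.le_V (D := e '' dom Φ) (D' := e '' dom Φ) hb
    (φ := φ ∘ e.symm) (ψ := ψ ∘ e.symm) ((testOn_iff _ _).1 hφ) ((testOn_iff _ _).1 hψ)
  have h2 : Vale.Agent.P145W85.P145.PT.V (e '' dom Φ) (φ ∘ e.symm) = V (dom Φ) φ := V_eq (dom Φ) φ
  have h3 : Vale.Agent.P145W85.P145.PT.energy (ψ ∘ e.symm) = ∫ z, ‖fderiv ℝ ψ z‖ ^ 2 := energy_eq ψ
  have h4 : ∫ z, (φ ∘ e.symm) z * (ψ ∘ e.symm) z = ∫ z, φ z * ψ z := by
    rw [← integral_e]
    simp only [Function.comp, e.symm_apply_apply]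
  rw [h2, h3, h4] at h1
  exact h1

/-- The variance of the limit field is positive. -/
theorem V_pos (Φ : ℂ ≃ₜ ℂ) {φ : ℂ → ℝ} (hφ : TestOn (dom Φ) φ) (h0 : φ ≠ 0) :
    0 < V (dom Φ) φ := by
  have hc : Continuous φ := hφ.1.continuous
  have ha : 0 < ∫ z, φ z * φ z := by
    have h1 : Continuous fun z => φ z * φ z := hc.mul hc
    obtain ⟨z, hz⟩ : ∃ z, φ z ≠ 0 := by
      by_contra h
      push Not at h
      exact h0 (funext h)
    refine h1.integral_pos_of_hasCompactSupport_nonneg_nonzero (x := z) ?_ ?_ ?_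
    · exact hφ.2.1.mul_left
    · exact fun z => mul_self_nonneg _
    · exact mul_ne_zero hz hz
  have hb : 0 ≤ ∫ z, ‖fderiv ℝ φ z‖ ^ 2 := integral_nonneg fun z => by positivity
  set a := ∫ z, φ z * φ z with ha'
  set b := ∫ z, ‖fderiv ℝ φ z‖ ^ 2 with hb'
  have key : ∀ t : ℝ, t * (2 * a) - t ^ 2 * b ≤ V (dom Φ) φ := by
    intro t
    have hψ : TestOn (dom Φ) (fun z => t * φ z) := by
      refine ⟨contDiff_const.mul hφ.1, hφ.2.1.mul_left, ?_⟩
      refine (closure_mono ?_).trans hφ.2.2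
      intro z hz
      rw [Function.mem_support] at hz ⊢
      exact right_ne_zero_of_mul hz
    have h1 := le_V Φ hφ hψ
    have h2 : ∫ z, φ z * (t * φ z) = t * a := by
      rw [ha', ← integral_const_mul]
      refine integral_congr_ae (ae_of_all _ fun z => ?_)
      simp only
      ring
    have h3 : ∫ z, ‖fderiv ℝ (fun z => t * φ z) z‖ ^ 2 = t ^ 2 * b := by
      rw [hb', ← integral_const_mul]
      refine integral_congr_ae (ae_of_all _ fun z => ?_)
      simp only
      have : fderiv ℝ (fun z => t * φ z) z = t • fderiv ℝ φ z := by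
        have hd : DifferentiableAt ℝ φ z := (hφ.1.differentiable (by simp)) z
        exact fderiv_const_mul hd t
      rw [this, norm_smul, mul_pow, Real.norm_eq_abs, sq_abs]
    rw [h2, h3] at h1
    linarith
  have h := key (a / (b + 1))
  have hb1 : 0 < b + 1 := by linarith
  have h5 : 0 < a / (b + 1) * (2 * a) - (a / (b + 1)) ^ 2 * b := by
    have e1 : a / (b + 1) * (2 * a) - (a / (b + 1)) ^ 2 * b =
        a ^ 2 * (b + 2) / (b + 1) ^ 2 := by
      field_simp
      ring
    rw [e1]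
    positivity
  linarith

end Vale.Agent.P145W85.P153.H212
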