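import Vale.Agent.P145W85.DG
import Vale.Agent.P145W85.F.Max

/-!
Existence and uniqueness of the Green function.
-/

set_option autoImplicit false

namespace Vale.Agent.P145W85.P153D

open Vale.Agent.P153D Vale.Agent.P145W85.P153.H212

open Filter Topology Set InnerProductSpace
open Vale.Agent.P153.H212 Vale.Agent.P153.R2 Vale.Agent.P145W85.P153.R2 Vale.Agent.P145W85.P153DG
open Vale.Agent.P145W85.P153.R2.KAPV (HP HP_open Unif gk rk QQ toC toR)

theorem gk_small {b : ℂ} (hb : b ∈ HP) {ε : ℝ} (hε : 0 < ε) :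
    ∃ s R : ℝ, 0 < s ∧ ∀ a ∈ HP, a ∉ QQ s R → gk a b ≤ ε := by
  have hb0 : 0 < b.im := hb
  have hbn : b.im ≤ ‖b‖ := (le_abs_self _).trans (Complex.abs_im_le_norm _)
  refine ⟨min (b.im / 2) (ε * b.im / 4), max (2 * ‖b‖) (4 * ‖b‖ / ε),
    lt_min (by positivity) (by positivity), fun a ha haQ => ?_⟩
  have ha0 : 0 < a.im := ha
  have han : a.im ≤ ‖a‖ := (le_abs_self _).trans (Complex.abs_im_le_norm _)
  have key : ∀ d : ℝ, 0 < d → d ≤ ‖a - b‖ → a.im * b.im ≤ ε * d ^ 2 → gk a b ≤ ε := by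
    intro d hd h1 h2
    have h3 : 0 < ‖a - b‖ := hd.trans_le h1
    refine (KAPV.gk_le ha hb (sub_ne_zero.1 (norm_pos_iff.1 h3))).trans ?_
    rw [div_le_iff₀ (pow_pos h3 2)]
    exact h2.trans (mul_le_mul_of_nonneg_left (pow_le_pow_left₀ hd.le h1 2) hε.le)
  by_cases hc : a.im < min (b.im / 2) (ε * b.im / 4)
  · obtain ⟨h1, h2⟩ := lt_min_iff.1 hc
    refine key (b.im / 2) (by positivity) ?_ (by nlinarith)
    have h3 := Complex.abs_im_le_norm (a - b)
    rw [Complex.sub_im] at h3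
    linarith [neg_abs_le (a.im - b.im)]
  · have hR : max (2 * ‖b‖) (4 * ‖b‖ / ε) < ‖a‖ := by
      by_contra h'
      exact haQ ⟨not_lt.1 hc, mem_closedBall_zero_iff.2 (not_lt.1 h')⟩
    obtain ⟨h1, h2⟩ := max_lt_iff.1 hR
    rw [div_lt_iff₀ hε] at h2
    have h3 : 0 < ‖a‖ := ha0.trans_le han
    refine key (‖a‖ / 2) (by positivity) (by linarith [norm_sub_norm_le a b]) ?_
    have h4 : a.im * b.im ≤ ‖a‖ * ‖b‖ := mul_le_mul han hbn hb0.le h3.le
    nlinarith

/-- The maximum principle. -/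
theorem max_dom {D : Set ℂ} (hD : IsOpen D) (hb : Bornology.IsBounded D) {u : ℂ → ℝ}
    (hu : HarmonicOnNhd u D) (h0 : ∀ x ∈ frontier D, Tendsto u (𝓝[D] x) (𝓝 0)) :
    ∀ z ∈ D, u z ≤ 0 := by
  have hD' : IsOpen (e '' D) := e.toHomeomorph.isOpenMap _ hD
  have hb' : Bornology.IsBounded (e '' D) :=
    (hb.isCompact_closure.image e.continuous).isBounded.subset (image_mono subset_closure)
  have hH : FLDI.Harm (e '' D) fun z => u (toC z) :=
    (KAPV.harm_iff hD').2 fun z hz => hu _ (mem_e.1 hz)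
  have hc : ContinuousOn (D.indicator u) (closure D) := by
    intro x hx
    by_cases hxD : x ∈ D
    · refine ContinuousAt.continuousWithinAt ?_
      refine (hu x hxD).1.continuousAt.congr ?_
      filter_upwards [hD.mem_nhds hxD] with y hy
      exact (indicator_of_mem hy u).symm
    · have hx' : x ∈ frontier D := by
        rw [hD.frontier_eq]
        exact ⟨hx, hxD⟩
      refine ContinuousAt.continuousWithinAt ?_
      rw [ContinuousAt, indicator_of_notMem hxD, ← nhdsWithin_univ, ← union_compl_self D,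
        nhdsWithin_union, tendsto_sup]
      exact ⟨(h0 x hx').congr' (eventually_mem_nhdsWithin.mono fun y hy =>
          (indicator_of_mem hy u).symm),
        tendsto_const_nhds.congr' (eventually_mem_nhdsWithin.mono fun y hy =>
          (indicator_of_notMem hy u).symm)⟩
  obtain ⟨K, hK⟩ := hb.isCompact_closure.exists_bound_of_continuousOn hc
  have key := FLDI.max_prin hD' hb' (E := ∅) (fun x hx => absurd hx (Finset.notMem_empty x)) hH
    (K := K) (fun z hz => by
      have := hK _ (subset_closure (mem_e.1 hz))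
      rwa [indicator_of_mem (mem_e.1 hz)] at this) (fun z hz _ ε hε => by
      have h1 : z ∈ e '' frontier D := by
        have := e.toHomeomorph.image_frontier D
        exact (show e '' frontier D = frontier (e '' D) from this) ▸ hz
      obtain ⟨δ, hδ, h2⟩ := Metric.tendsto_nhdsWithin_nhds.1 (h0 _ (mem_e.1 h1)) ε hε
      obtain ⟨r, hr, h3⟩ := Metric.continuous_iff.1 KAPV.toC_cont z δ hδ
      refine ⟨r, hr, fun x hx hxr => ?_⟩
      have h4 := h2 (mem_e.1 hx) (h3 x hxr)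
      rw [Real.dist_eq, sub_zero] at h4
      exact (le_abs_self _).trans h4.le)
  exact fun z hz => key (toR z) (mem_e.2 hz)

theorem isGreen_gD {Φ : ℂ ≃ₜ ℂ} {ψ : ℂ → ℂ} (h : IsConformal Φ ψ) : IsGreen (dom Φ) (gD ψ) := by
  have hU := unif_of h
  have hD := isOpen_dom Φ
  have hD' : IsOpen (e '' dom Φ) := e.toHomeomorph.isOpenMap _ hD
  have hm : ∀ z ∈ dom Φ, toR z ∈ e '' dom Φ := fun z hz => mem_e.2 hz
  intro w hw
  refine ⟨⟨fun z => rk (Function.invFunOn ψ HP) (toR w) (toR z), fun z hz =>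
    (KAPV.harm_iff hD').1 (hU.rk_harm hD' (hm w hw)) _ (hm z hz), fun z hz hzw => ?_⟩,
    fun x hx => ?_⟩
  · have h1 := hU.gk_eq (hm z hz) (hm w hw) fun k => hzw (congrArg toC k)
    rw [KAPV.green_eq] at h1
    refine Eq.trans h1 ?_
    rw [one_div, Real.log_inv, KAPV.toC_toR, KAPV.toC_toR]
    ring
  · rw [Metric.tendsto_nhds]
    intro ε hε
    have hw' := hU.Gm _ (hm w hw)
    obtain ⟨s, R, hs, hQ⟩ := gk_small hw' (half_pos hε)
    have hK : IsCompact (ψ '' QQ s R) :=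
      (KAPV.QQ_compact s R).image_of_continuousOn (hU.Fd.continuousOn.mono (KAPV.QQ_sub hs))
    have hx' : x ∉ ψ '' QQ s R := by
      rintro ⟨a, ha, rfl⟩
      rw [hD.frontier_eq] at hx
      exact hx.2 (h.2.1.mapsTo (KAPV.QQ_sub hs ha))
    filter_upwards [self_mem_nhdsWithin,
      mem_nhdsWithin_of_mem_nhds (hK.isClosed.isOpen_compl.mem_nhds hx')] with z hz hzK
    have hz' := hU.Gm _ (hm z hz)
    have h1 := hQ _ hz' fun k => hzK ⟨_, k, hU.FG _ (hm z hz)⟩
    have h2 := KAPV.gk_nonneg hz' hw'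
    rw [Real.dist_eq, sub_zero]
    exact (abs_of_nonneg h2).trans_lt (h1.trans_lt (half_lt_self hε))

theorem green_le {D : Set ℂ} (hD : IsOpen D) (hb : Bornology.IsBounded D) {G G' : ℂ → ℂ → ℝ}
    (h : IsGreen D G) (h' : IsGreen D G') {z w : ℂ} (hz : z ∈ D) (hw : w ∈ D) (hzw : z ≠ w) :
    G z w ≤ G' z w := by
  obtain ⟨⟨H, h1, h2⟩, h3⟩ := h w hw
  obtain ⟨⟨H', k1, k2⟩, k3⟩ := h' w hw
  have key := max_dom hD hb (u := H - H') (fun y hy => (h1 y hy).sub (k1 y hy)) (fun x hx => by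
    have h4 := (h3 x hx).sub (k3 x hx)
    rw [sub_zero] at h4
    refine h4.congr' ?_
    have hxw : x ≠ w := by
      rintro rfl
      rw [hD.frontier_eq] at hx
      exact hx.2 hw
    filter_upwards [self_mem_nhdsWithin,
      mem_nhdsWithin_of_mem_nhds (isOpen_ne.mem_nhds hxw)] with y hy hyw
    rw [h2 y hy hyw, k2 y hy hyw, Pi.sub_apply]
    ring) z hz
  rw [h2 z hz hzw, k2 z hz hzw]
  rw [Pi.sub_apply] at key
  linarith

theorem gr1 : GR1 := fun Φ _ h => ⟨isGreen_gD h, fun _ hG _ hz _ hw hzw =>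
  le_antisymm (green_le (isOpen_dom Φ) (isBounded_dom Φ) hG (isGreen_gD h) hz hw hzw)
    (green_le (isOpen_dom Φ) (isBounded_dom Φ) (isGreen_gD h) hG hz hw hzw)⟩

end Vale.Agent.P145W85.P153D
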