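import Vale.Agent.P145W85.Gr1
import Vale.Agent.P153.R2.R1.Jordan
import Vale.Agent.P145.JG.Defs

/-!
The Green function of a Jordan domain exists and gives the inverse of the Dirichlet Laplacian.
-/

set_option autoImplicit false

namespace Vale.Agent.P145W85

open Set Vale.Agent.P153.H212 Vale.Agent.P153.R2.R1

/-- The conformal map from the half-plane onto a Jordan domain. -/
theorem conformal (Φ : ℂ ≃ₜ ℂ) : ∃ ψ, IsConformal Φ ψ := by
  set Ψ : (ℝ × ℝ) ≃ₜ (ℝ × ℝ) := (toCH.trans Φ).trans toCH.symm with hΨ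
  have e0 : homC Ψ = Φ := by
    ext z
    simp [homC, hΨ]
  obtain ⟨ψ, h⟩ := exists_uniformizer Ψ
  obtain ⟨h1, h2, h3, h4, h5, h6⟩ := (isUniformizer_iff Ψ ψ).1 h
  rw [DC_eq, e0] at h3
  rw [FC_eq, e0] at h5 h6
  refine ⟨ψ, h1, ⟨?_, h2, ?_⟩, h4, ?_, ?_⟩
  · intro z hz
    rw [dom, ← h3]
    exact mem_image_of_mem ψ hz
  · intro z hz
    rw [dom, ← h3] at hz
    exact hz
  · simpa using h5
  · rwa [Complex.exp_pi_mul_I] at h6

/-- The Green function exists and its double integrals are given by the Dirichlet principle. -/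
theorem grn : Vale.Agent.P153D.GRN :=
  Vale.Agent.P153D.grn_of conformal P153D.gr1 P153DG.gr2

theorem V_nonneg (Φ : ℂ ≃ₜ ℂ) {φ : ℂ → ℝ} (hφ : TestOn (dom Φ) φ) : 0 ≤ V (dom Φ) φ := by
  have h0 : TestOn (dom Φ) fun _ => 0 :=
    ⟨contDiff_const, HasCompactSupport.zero, by simp⟩
  simpa using P153.H212.le_V Φ hφ h0

theorem V_pos (Φ : ℂ ≃ₜ ℂ) {φ : ℂ → ℝ} (hφ : TestOn (dom Φ) φ) (h0 : φ ≠ 0) :
    0 < V (dom Φ) φ := P153.H212.V_pos Φ hφ h0

theorem testOn_jg (D : Set ℂ) (φ : ℂ → ℝ) : TestOn D φ ↔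
    Vale.Agent.P145.JG.TestOn (Complex.equivRealProdCLM '' D)
      fun z => φ (Complex.equivRealProdCLM.symm z) := testOn_iff D φ

theorem V_jg (D : Set ℂ) (φ : ℂ → ℝ) :
    Vale.Agent.P145.JG.V (Complex.equivRealProdCLM '' D)
      (fun z => φ (Complex.equivRealProdCLM.symm z)) = V D φ := V_eq D φ

theorem dirCov_jg (D : Set ℂ) (φ ψ : ℂ → ℝ) :
    Vale.Agent.P145.JG.dirCov (Complex.equivRealProdCLM '' D)
      (fun z => φ (Complex.equivRealProdCLM.symm z))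
      (fun z => ψ (Complex.equivRealProdCLM.symm z)) =
      (V D (fun z => φ z + ψ z) - V D fun z => φ z - ψ z) / 4 := by
  rw [← V_jg, ← V_jg]
  rfl

/-- The double integrals of the Green function are the covariances `dirCov`. -/
theorem green_dirCov (Φ : ℂ ≃ₜ ℂ) {G : ℂ → ℂ → ℝ} (hG : Vale.Agent.P153D.IsGreen (dom Φ) G)
    {f g : ℂ → ℝ} (hf : TestOn (dom Φ) f) (hg : TestOn (dom Φ) g) :
    (∫ z in dom Φ, ∫ w in dom Φ, f z * G z w * g w) =
      Vale.Agent.P145.JG.dirCov (Complex.equivRealProdCLM '' dom Φ)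
        (fun z => f (Complex.equivRealProdCLM.symm z))
        (fun z => g (Complex.equivRealProdCLM.symm z)) := by
  rw [dirCov_jg]
  exact ((grn Φ).2 G hG f g hf hg).2

theorem dirCov_self (Φ : ℂ ≃ₜ ℂ) {f : ℂ → ℝ} (hf : TestOn (dom Φ) f) :
    Vale.Agent.P145.JG.dirCov (Complex.equivRealProdCLM '' dom Φ)
      (fun z => f (Complex.equivRealProdCLM.symm z))
      (fun z => f (Complex.equivRealProdCLM.symm z)) = V (dom Φ) f := by
  obtain ⟨G, hG⟩ := (grn Φ).1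
  rw [← green_dirCov Φ hG hf hf]
  exact ((grn Φ).2 G hG f f hf hf).1

end Vale.Agent.P145W85
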